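import Vale.Agent.P283.A647.H571.Ch

/-!
B5a. The coordinates of the chart of the hyperplanes `e` and `m`.
-/

set_option linter.all false

namespace Vale.Agent.P283.A647.H571

open MvPolynomial

section

variable {L : Type} [Field L] [Algebra ℂ L] {g R k : ℕ} {t : Fin g → L}
  {a : Fin R → Fin (g + 1) → ℂ} {z : Fin k → L}

theorem isRat_of_le {d : ℕ} {x y : Fin d → L} (h : IsRat x)
    (hxy : ∀ i, x i ∈ IntermediateField.adjoin ℂ (Set.range y)) : IsRat y := by
  have hgen : IntermediateField.adjoin ℂ (Set.range y) = ⊤ := by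
    rw [eq_top_iff, ← h.gen, IntermediateField.adjoin_le_iff]
    rintro _ ⟨i, rfl⟩
    exact hxy i
  refine ⟨hgen, ?_⟩
  haveI : Algebra.IsAlgebraic (Algebra.adjoin ℂ (Set.range y)) L := T647.isAlg_of_gen hgen
  have h2 := Algebra.IsAlgebraic.isTranscendenceBasis_of_le_trdeg_of_finite (R := ℂ)
    y (by rw [trdeg h]; simp)
  exact h2.1

/-- The forms of a chart span the coordinates. -/
theorem exists_inverse (ha : GenPos a) {e : Fin (g + 1) → Option (Fin R)}
    (he : Function.Injective e) : ∃ N : Fin (g + 1) → Fin (g + 1) → ℂ, ∀ t : Fin g → L, ∀ s,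
      (Fin.cons 1 t : Fin (g + 1) → L) s = ∑ i, algebraMap ℂ L (N s i) * form t a (e i) := by
  classical
  set M : Matrix (Fin (g + 1)) (Fin (g + 1)) ℂ :=
    Matrix.of fun i => ((e i).elim (Pi.single 0 1) a : Fin (g + 1) → ℂ) with hM
  have hdet : IsUnit M.det := isUnit_iff_ne_zero.2 (ha e he)
  refine ⟨fun s i => M⁻¹ s i, fun t s => ?_⟩
  have h1 : ∀ i, form t a (e i) = ∑ j, algebraMap ℂ L (M i j) * (Fin.cons 1 t : Fin (g + 1) → L) j :=
    fun i => form_eq t a (e i)
  have h2 : ∑ i, algebraMap ℂ L (M⁻¹ s i) * form t a (e i) =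
      ∑ j, algebraMap ℂ L ((M⁻¹ * M) s j) * (Fin.cons 1 t : Fin (g + 1) → L) j := by
    rw [Finset.sum_congr rfl fun i _ => by rw [h1 i, Finset.mul_sum], Finset.sum_comm]
    refine Finset.sum_congr rfl fun j _ => ?_
    rw [Matrix.mul_apply, map_sum, Finset.sum_mul]
    refine Finset.sum_congr rfl fun i _ => ?_
    rw [map_mul]; ring
  rw [h2, Matrix.nonsing_inv_mul _ hdet, Finset.sum_eq_single s]
  · rw [Matrix.one_apply_eq, map_one, one_mul]
  · intro j _ hj
    rw [Matrix.one_apply_ne hj.symm, map_zero, zero_mul]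
  · intro h4
    exact absurd (Finset.mem_univ _) h4

end

theorem b5a' {g R k : ℕ} {L : Type} [Field L] [Algebra ℂ L] {t : Fin g → L}
    {a : Fin R → Fin (g + 1) → ℂ} {z : Fin k → L} (hrat : IsRat (Fin.append t z))
    (hgen : GenPos a) (m : Option (Fin R)) (e : Fin g → Option (Fin R))
    (he : Function.Injective e) (hem : ∀ j, e j ≠ m) : IsRat (arrY t a z m e) := by
  set F := IntermediateField.adjoin ℂ (Set.range (arrY t a z m e)) with hF
  have hinj : Function.Injective (Fin.cons m e : Fin (g + 1) → Option (Fin R)) := by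
    rw [Fin.cons_injective_iff]
    exact ⟨fun ⟨j, hj⟩ => hem j hj, he⟩
  obtain ⟨N, hN⟩ := exists_inverse (L := L) hgen hinj
  have hN := hN t
  have hm : form t a m ≠ 0 := by
    intro h0
    have h1 : (Pi.single 0 1 : Fin (g + 1) → ℂ) ≠ 0 := by
      intro h
      have := congrFun h 0
      rw [Pi.single_eq_same] at this
      exact one_ne_zero this
    rw [form_eq] at h0
    have h2 := lin_indep hrat _ h0
    apply hgen _ hinj
    apply Matrix.det_eq_zero_of_row_eq_zero 0
    intro j
    rw [Matrix.of_apply, Fin.cons_zero]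
    exact congrFun h2 j
  have hmemY : ∀ i, arrY t a z m e i ∈ F := fun i =>
    IntermediateField.subset_adjoin ℂ _ ⟨i, rfl⟩
  have hratio : ∀ i, form t a ((Fin.cons m e : Fin (g + 1) → Option (Fin R)) i) / form t a m ∈ F := by
    intro i
    refine Fin.cases ?_ (fun j => ?_) i
    · rw [Fin.cons_zero, div_self hm]
      exact one_mem F
    · rw [Fin.cons_succ]
      have h1 := hmemY (Fin.castAdd k j)
      unfold arrY at h1
      rwa [Fin.append_left] at h1
  have hT : ∀ s, (Fin.cons 1 t : Fin (g + 1) → L) s / form t a m ∈ F := by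
    intro s
    rw [hN s, Finset.sum_div]
    refine sum_mem fun i _ => ?_
    rw [mul_div_assoc]
    exact mul_mem (IntermediateField.algebraMap_mem F _) (hratio i)
  have hinv : (form t a m)⁻¹ ∈ F := by
    have h1 := hT 0
    rwa [Fin.cons_zero, one_div] at h1
  apply isRat_of_le hrat
  intro i
  refine Fin.addCases (fun j => ?_) (fun l => ?_) i
  · rw [Fin.append_left]
    have h1 := hT j.succ
    rw [Fin.cons_succ] at h1
    have h2 := div_mem h1 hinv
    rwa [div_eq_mul_inv, inv_inv, div_mul_cancel₀ _ hm] at h2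
  · rw [Fin.append_right]
    have h1 := hmemY (Fin.natAdd g l)
    unfold arrY at h1
    rwa [Fin.append_right] at h1

/-- B5a. -/
theorem b5a : ArrRat := by
  intro g R k L _ _ t a z hrat hgen m e he hem
  exact b5a' hrat hgen m e he hem

end Vale.Agent.P283.A647.H571
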