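import Vale.Agent.P283.A647.H571.Ch
import Vale.Agent.P283.T647.G7

/-!
B8. The log discrepancies at the lattice points.
-/

set_option linter.all false

namespace Vale.Agent.P283.A647.H571

open MvPolynomial

theorem ordMono_mul {ι : Type} [Fintype ι] {M : ℕ} (E : Fin (M + 1) → ι → ℤ) (α β : ι → ℤ)
    (c : ℕ) (h : ∀ x, (c : ℤ) * β x = α x) : ordMono E α = c * ordMono E β :=
  T647.ordMono_mul' E α β c h

theorem b8 (h : ChartExist) (ha : ArrRat) (hj : ArrJac) (hl : ArrLin) : LcPoint := by
  intro g R k N M r L _ _ t a z hg hR hrat hgen v E ε hε hr D' h₀ hj₀ hlc α hα hcone hα0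
  obtain ⟨m, e, he, hem, hwm, hwp⟩ := exists_chart hR hα
  obtain ⟨u, hu, hJ⟩ := hj g R k L t a z hrat hgen m e he hem
  obtain ⟨A, B, hA, hlin, hlin1, hBz, -⟩ := hl g R k L t a z hrat hgen m e he hem
  have hf : ∀ p, form t a p ≠ 0 := form_ne hR hrat hgen
  set ω : Fin (g + k) → ℤ :=
    Fin.append (fun j => wt α (e j) - low α) (fun l => α (Sum.inr l)) with hω
  have hωl : ∀ j, ω (Fin.castAdd k j) = wt α (e j) - low α := fun j => by
    rw [hω, Fin.append_left]
  have hωr : ∀ l, ω (Fin.natAdd g l) = α (Sum.inr l) := fun l => by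
    rw [hω, Fin.append_right]
  have hω0 : ω ≠ 0 := by
    intro h0
    have h1 : ∀ p, wt α p = low α := by
      intro p
      by_cases hp : ∀ j, e j ≠ p
      · exact hwp p hp
      · push Not at hp
        obtain ⟨j, rfl⟩ := hp
        have h2 := congrFun h0 (Fin.castAdd k j)
        rw [hωl, Pi.zero_apply] at h2
        exact sub_eq_zero.1 h2
    have h2 : low α = 0 := (h1 none).symm
    apply hα0
    funext x
    cases x with
    | inl i =>
      have h3 := h1 (some i)
      rw [h2] at h3
      exact h3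
    | inr l =>
      have h3 := congrFun h0 (Fin.natAdd g l)
      rw [hωr, Pi.zero_apply] at h3
      exact h3
  obtain ⟨w, hw, c, hc, hwy, hwl, hdisc⟩ := h (g + k) (Option (Fin R)) L (arrY t a z m e) A B
    (Nat.add_pos_left hg k) (ha g R k L t a z hrat hgen m e he hem) hA ω hω0 (by
      intro p j hB
      refine Fin.addCases (fun j hB => ?_) (fun l hB => ?_) j hB
      · rw [hωl]
        exact sub_nonneg.2 (low_le α _)
      · exact absurd (hBz p l) hB)
  have hd : ∀ p, (c : ℤ) * (ov w (form t a p) - ov w (form t a m)) = wt α p - low α := by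
    intro p
    by_cases hp : ∀ j, e j ≠ p
    · have h1 := hwl p
      rw [hlin p hp, ov_div w (hf _) (hf _)] at h1
      rw [h1, mul_zero, hwp p hp, sub_self]
    · push Not at hp
      obtain ⟨j, rfl⟩ := hp
      have h1 := hwy (Fin.castAdd k j)
      rw [ov_arrY_left w hf, hωl] at h1
      exact h1
  have hm0 : (c : ℤ) * ov w (form t a m) = low α := by
    have h1 := hd none
    have h2 : ov w (form t a none) = 0 := ov_one w
    have h3 : wt α none = 0 := rfl
    rw [h2, h3] at h1
    linarith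
  have hp0 : ∀ p, (c : ℤ) * ov w (form t a p) = wt α p := by
    intro p
    have h1 := hd p
    rw [mul_sub, hm0] at h1
    linarith
  have hwts : ∀ x, (c : ℤ) * wts w t a z x = α x := by
    intro x
    cases x with
    | inl i => exact hp0 (some i)
    | inr l =>
      have h1 := hwy (Fin.natAdd g l)
      rw [ov_arrY_right, hωr] at h1
      exact h1
  have hcQ : (0 : ℚ) < c := by exact_mod_cast hc
  have hcone' : InCone v (wts w t a z) := by
    obtain ⟨u, hu, hu'⟩ := hcone
    refine ⟨fun j => u j / c, fun j => div_nonneg (hu j) hcQ.le, fun x => ?_⟩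
    have h2 : (α x : ℚ) = c * (wts w t a z x : ℚ) := by rw [← hwts x]; push_cast; ring
    have h3 : (wts w t a z x : ℚ) = α x / c := by rw [h2]; field_simp
    rw [h3, hu', Finset.sum_div]
    exact Finset.sum_congr rfl fun j _ => by ring
  haveI := (coords hrat).essFiniteType
  have h10 : h₀ * Q.jac D' (Fin.append t z) ≠ 0 := by rw [hj₀]; exact one_ne_zero
  have hjne : Q.jac D' (Fin.append t z) ≠ 0 := right_ne_zero_of_mul h10
  have h0ne : h₀ ≠ 0 := left_ne_zero_of_mul h10
  obtain ⟨m', hm'⟩ := H647.order_exists (Nat.add_pos_left hg k) (trdeg hrat) D' ⟨_, hjne⟩ hw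
  have h1 := hlc w m' hw hcone' hm'
  have h2 := hdisc D' _ (jac_chart (hf m) hu hj₀ (hJ D')) m' hm'
  rw [ov_chart hw.const (hf m) hu h0ne, Fin.sum_univ_add] at h2
  have h3 : (c : ℤ) * (1 + m' - ov w h₀) = logDisc g α := by
    rw [logDisc_chart he hwp]
    have h4 : ∑ j, ω (Fin.castAdd k j) = ∑ j, (wt α (e j) - low α) :=
      Finset.sum_congr rfl fun j _ => hωl j
    have h5 : ∑ l, ω (Fin.natAdd g l) = ∑ l, α (Sum.inr l) :=
      Finset.sum_congr rfl fun l _ => hωr l
    rw [h4, h5] at h2
    linear_combination h2 + (g + 1) * hm0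
  have h4 : ordMono E α = c * ordMono E (wts w t a z) := ordMono_mul E _ _ c hwts
  have hc1 : (1 : ℝ) ≤ c := by exact_mod_cast hc
  rw [← h3, h4]
  push_cast
  have h5 : (c : ℝ) * (1 + (m' : ℝ) - ov w h₀) - c * (ordMono E (wts w t a z) : ℝ) / r =
      c * (1 + m' - ov w h₀ - (ordMono E (wts w t a z) : ℝ) / r) := by ring
  rw [h5]
  nlinarith

end Vale.Agent.P283.A647.H571
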