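import Vale.Agent.P283.A647.Props
import Vale.Agent.P283.T647.Ch

/-!
The charts of the hyperplanes: shared lemmas for B7 and B8.
-/

set_option linter.all false

namespace Vale.Agent.P283.A647.H571

open MvPolynomial

section Rat

variable {L : Type} [Field L] [Algebra ℂ L] {d : ℕ}

theorem coords {y : Fin d → L} (h : IsRat y) : IsCoords y where
  ind := h.ind
  gen := by
    intro f
    obtain ⟨p, r, hr, hf⟩ := T647.gen_div h.gen f
    exact ⟨p, r, fun h0 => hr (by rw [h0, map_zero]), hf⟩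

theorem trdeg {y : Fin d → L} (h : IsRat y) : Algebra.trdeg ℂ L = (d : ℕ) := by
  rw [(coords h).trdeg_eq, Fintype.card_fin]

end Rat

section Form

variable {L : Type} [Field L] [Algebra ℂ L] {g R k : ℕ} {t : Fin g → L}
  {a : Fin R → Fin (g + 1) → ℂ} {z : Fin k → L}

theorem lin_indep (h : IsRat (Fin.append t z)) (r : Fin (g + 1) → ℂ)
    (h0 : ∑ j, algebraMap ℂ L (r j) * (Fin.cons 1 t : Fin (g + 1) → L) j = 0) : r = 0 := by
  set P : MvPolynomial (Fin (g + k)) ℂ :=
    C (r 0) + ∑ j : Fin g, C (r j.succ) * X (Fin.castAdd k j) with hP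
  have h1 : aeval (Fin.append t z) P = 0 := by
    rw [hP, map_add, map_sum, ← h0, Fin.sum_univ_succ, Fin.cons_zero, mul_one, aeval_C]
    congr 1
    refine Finset.sum_congr rfl fun j _ => ?_
    rw [map_mul, aeval_C, aeval_X, Fin.append_left, Fin.cons_succ]
  have h2 : P = 0 := h.ind.eq_zero_of_aeval_eq_zero _ h1
  have hc : ∀ m, coeff m P = 0 := fun m => by rw [h2, coeff_zero]
  funext j
  refine Fin.cases ?_ (fun i => ?_) j
  · have h3 := hc 0
    rw [hP, coeff_add, coeff_zero_C, coeff_sum] at h3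
    rw [Finset.sum_eq_zero, add_zero] at h3
    · exact h3
    · intro i _
      rw [coeff_C_mul, coeff_zero_X, mul_zero]
  · have h3 := hc (Finsupp.single (Fin.castAdd k i) 1)
    have hne : ¬ ((0 : Fin (g + k) →₀ ℕ) = Finsupp.single (Fin.castAdd k i) 1) := by
      intro h4
      have h5 := DFunLike.congr_fun h4 (Fin.castAdd k i)
      rw [Finsupp.single_eq_same, Finsupp.zero_apply] at h5
      exact zero_ne_one h5
    rw [hP, coeff_add, coeff_C, if_neg hne, zero_add, coeff_sum] at h3
    rw [Finset.sum_eq_single i] at h3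
    · rw [coeff_C_mul, coeff_X, if_pos rfl, mul_one] at h3
      exact h3
    · intro j _ hji
      rw [coeff_C_mul, coeff_X', if_neg, mul_zero]
      intro h4
      apply hji
      have h5 := Finsupp.single_left_injective one_ne_zero h4
      exact Fin.castAdd_injective _ _ h5
    · intro h4
      exact absurd (Finset.mem_univ i) h4

/-- The coefficients of a form. -/
theorem form_eq (t : Fin g → L) (a : Fin R → Fin (g + 1) → ℂ) (p : Option (Fin R)) :
    form t a p = ∑ j, algebraMap ℂ L ((p.elim (Pi.single 0 1) a : Fin (g + 1) → ℂ) j) *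
      (Fin.cons 1 t : Fin (g + 1) → L) j := by
  cases p with
  | none =>
    show (1 : L) = ∑ j, algebraMap ℂ L ((Pi.single 0 1 : Fin (g + 1) → ℂ) j) *
      (Fin.cons 1 t : Fin (g + 1) → L) j
    rw [Finset.sum_eq_single 0]
    · rw [Pi.single_eq_same, map_one, one_mul, Fin.cons_zero]
    · intro j _ hj
      rw [Pi.single_eq_of_ne hj, map_zero, zero_mul]
    · intro h4
      exact absurd (Finset.mem_univ _) h4
  | some i => rfl

theorem exists_inj (hR : g ≤ R) (p : Option (Fin R)) :
    ∃ e : Fin (g + 1) → Option (Fin R), Function.Injective e ∧ e 0 = p := by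
  classical
  have h1 : Fintype.card (Fin (g + 1)) ≤ Fintype.card (Option (Fin R)) := by
    rw [Fintype.card_fin, Fintype.card_option, Fintype.card_fin]; omega
  obtain ⟨f⟩ := Function.Embedding.nonempty_of_card_le h1
  refine ⟨fun i => Equiv.swap (f 0) p (f i), fun i j hij => f.injective ?_, ?_⟩
  · exact (Equiv.swap (f 0) p).injective hij
  · exact Equiv.swap_apply_left _ _

theorem form_ne (hR : g ≤ R) (h : IsRat (Fin.append t z)) (ha : GenPos a) (p : Option (Fin R)) :
    form t a p ≠ 0 := by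
  intro h0
  rw [form_eq] at h0
  have h1 := lin_indep h _ h0
  obtain ⟨e, he, he0⟩ := exists_inj (g := g) hR p
  apply ha e he
  apply Matrix.det_eq_zero_of_row_eq_zero 0
  intro j
  rw [Matrix.of_apply, he0]
  exact congrFun h1 j

theorem z_ne (h : IsRat (Fin.append t z)) (l : Fin k) : z l ≠ 0 := by
  have := (coords h).ne_zero (Fin.natAdd g l)
  rwa [Fin.append_right] at this

theorem coord_ne (hR : g ≤ R) (h : IsRat (Fin.append t z)) (ha : GenPos a)
    (x : Fin R ⊕ Fin k) : coord t a z x ≠ 0 := by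
  cases x with
  | inl i => exact form_ne hR h ha (some i)
  | inr l => exact z_ne h l

theorem wt_wts (w : AddValuation L (WithTop ℤ)) (t : Fin g → L) (a : Fin R → Fin (g + 1) → ℂ)
    (z : Fin k → L) (p : Option (Fin R)) : wt (wts w t a z) p = ov w (form t a p) := by
  cases p with
  | none =>
    show (0 : ℤ) = ov w (1 : L)
    rw [ov_one]
  | some i => rfl

end Form

section Comb

variable {g R k : ℕ}

theorem low_le (α : Fin R ⊕ Fin k → ℤ) (p : Option (Fin R)) : low α ≤ wt α p :=
  ciInf_le (f := fun p => wt α p) (Set.finite_range _).bddBelow p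

theorem exists_chart (hR : g ≤ R) {α : Fin R ⊕ Fin k → ℤ} (hα : OnTrop g α) :
    ∃ (m : Option (Fin R)) (e : Fin g → Option (Fin R)), Function.Injective e ∧
      (∀ j, e j ≠ m) ∧ wt α m = low α ∧ ∀ p, (∀ j, e j ≠ p) → wt α p = low α := by
  classical
  obtain ⟨I, hI, hI'⟩ := hα
  have hcard : Fintype.card (Option (Fin R)) = R + 1 := by
    rw [Fintype.card_option, Fintype.card_fin]
  obtain ⟨I', hsub, hI'c⟩ := Finset.exists_superset_card_eq (s := I) (n := g) hI
    (by rw [hcard]; omega)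
  obtain ⟨m, hm⟩ : ∃ m, m ∉ I' := by
    by_contra hno
    push Not at hno
    have h1 : I' = Finset.univ := Finset.eq_univ_iff_forall.2 hno
    rw [h1, Finset.card_univ, hcard] at hI'c
    omega
  have hmem : ∀ j : Fin g, ((I'.equivFinOfCardEq hI'c).symm j : Option (Fin R)) ∈ I' :=
    fun j => ((I'.equivFinOfCardEq hI'c).symm j).2
  have hout : ∀ p, (∀ j : Fin g, ((I'.equivFinOfCardEq hI'c).symm j : Option (Fin R)) ≠ p) →
      p ∉ I' := by
    intro p hp hpI
    apply hp (I'.equivFinOfCardEq hI'c ⟨p, hpI⟩)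
    rw [Equiv.symm_apply_apply]
  refine ⟨m, fun j => ((I'.equivFinOfCardEq hI'c).symm j : Option (Fin R)), ?_, ?_, ?_, ?_⟩
  · exact Subtype.val_injective.comp (Equiv.injective _)
  · intro j hj
    exact hm (hj ▸ hmem j)
  · exact hI' m fun h => hm (hsub h)
  · intro p hp
    exact hI' p fun h => hout p hp (hsub h)

/-- Sums over the forms and sums over the chart. -/
theorem sum_chart {e : Fin g → Option (Fin R)} (he : Function.Injective e)
    (f : Option (Fin R) → ℤ) (hf : ∀ p, (∀ j, e j ≠ p) → f p = 0) :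
    ∑ j, f (e j) = ∑ p, f p := by
  classical
  rw [← Finset.sum_image (s := Finset.univ) (g := e) (f := f) fun x _ y _ h => he h]
  apply Finset.sum_subset (Finset.subset_univ _)
  intro p _ hp
  apply hf
  intro j hj
  exact hp (Finset.mem_image.2 ⟨j, Finset.mem_univ _, hj⟩)

theorem logDisc_chart {α : Fin R ⊕ Fin k → ℤ} {e : Fin g → Option (Fin R)}
    (he : Function.Injective e) (hp : ∀ p, (∀ j, e j ≠ p) → wt α p = low α) :
    logDisc g α = (g + 1) * low α + ∑ j, (wt α (e j) - low α) + ∑ l, α (Sum.inr l) := by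
  rw [sum_chart he (fun p => wt α p - low α) fun p h => by rw [hp p h, sub_self],
    Finset.sum_sub_distrib, Fintype.sum_option, Finset.sum_const, Finset.card_univ,
    Fintype.card_option, Fintype.card_fin, nsmul_eq_mul]
  unfold logDisc
  rw [Fintype.sum_sum_type]
  show ∑ i, α (Sum.inl i) + ∑ l, α (Sum.inr l) - ((R : ℤ) - g) * low α =
    (g + 1) * low α + (0 + ∑ i, α (Sum.inl i) - ((R + 1 : ℕ) : ℤ) * low α) + ∑ l, α (Sum.inr l)
  push_cast
  ring

end Comb

section Chart

variable {L : Type} [Field L] [Algebra ℂ L] {g R k : ℕ} {t : Fin g → L}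
  {a : Fin R → Fin (g + 1) → ℂ} {z : Fin k → L}

/-- The inverse of the Jacobian determinant in the chart. -/
theorem jac_chart {m : Option (Fin R)} {e : Fin g → Option (Fin R)} (hm : form t a m ≠ 0) {u : ℂ}
    (hu : u ≠ 0) {D' : Fin (g + k) → Derivation ℂ L L} {h : L}
    (hj : h * Q.jac D' (Fin.append t z) = 1)
    (hJ : Q.jac D' (arrY t a z m e) =
      algebraMap ℂ L u * (form t a m)⁻¹ ^ (g + 1) * Q.jac D' (Fin.append t z)) :
    ((algebraMap ℂ L u)⁻¹ * form t a m ^ (g + 1) * h) * Q.jac D' (arrY t a z m e) = 1 := by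
  have h1 : algebraMap ℂ L u ≠ 0 := (map_ne_zero _).2 hu
  rw [hJ]
  have h2 : ((algebraMap ℂ L u)⁻¹ * form t a m ^ (g + 1) * h) *
      (algebraMap ℂ L u * (form t a m)⁻¹ ^ (g + 1) * Q.jac D' (Fin.append t z)) =
      ((algebraMap ℂ L u)⁻¹ * algebraMap ℂ L u) * (form t a m * (form t a m)⁻¹) ^ (g + 1) *
        (h * Q.jac D' (Fin.append t z)) := by
    rw [mul_pow]; ring
  rw [h2, hj, inv_mul_cancel₀ h1, mul_inv_cancel₀ hm, one_pow, one_mul, one_mul]

theorem ov_const {w : AddValuation L (WithTop ℤ)}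
    (hw : ∀ c : ℂ, c ≠ 0 → w (algebraMap ℂ L c) = 0) {u : ℂ} (hu : u ≠ 0) :
    ov w (algebraMap ℂ L u) = 0 :=
  (eq_zero_iff w ((map_ne_zero _).2 hu)).1 (hw u hu)

theorem ov_chart {w : AddValuation L (WithTop ℤ)}
    (hw : ∀ c : ℂ, c ≠ 0 → w (algebraMap ℂ L c) = 0) {m : Option (Fin R)}
    (hm : form t a m ≠ 0) {u : ℂ} (hu : u ≠ 0) {h : L} (h0 : h ≠ 0) :
    ov w ((algebraMap ℂ L u)⁻¹ * form t a m ^ (g + 1) * h) =
      (g + 1) * ov w (form t a m) + ov w h := by
  have h1 : algebraMap ℂ L u ≠ 0 := (map_ne_zero _).2 hu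
  rw [ov_mul w (mul_ne_zero (inv_ne_zero h1) (pow_ne_zero _ hm)) h0,
    ov_mul w (inv_ne_zero h1) (pow_ne_zero _ hm), ov_inv, ov_const hw hu, ov_pow w hm]
  push_cast
  ring

theorem ov_arrY_left (w : AddValuation L (WithTop ℤ)) (hf : ∀ p, form t a p ≠ 0)
    (m : Option (Fin R)) (e : Fin g → Option (Fin R)) (j : Fin g) :
    ov w (arrY t a z m e (Fin.castAdd k j)) = ov w (form t a (e j)) - ov w (form t a m) := by
  unfold arrY
  rw [Fin.append_left, ov_div w (hf _) (hf _)]

theorem ov_arrY_right (w : AddValuation L (WithTop ℤ)) (m : Option (Fin R))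
    (e : Fin g → Option (Fin R)) (l : Fin k) :
    ov w (arrY t a z m e (Fin.natAdd g l)) = ov w (z l) := by
  unfold arrY
  rw [Fin.append_right]

end Chart

end Vale.Agent.P283.A647.H571
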